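import Vale.Agent.P101.Bridge.Main

/-! P101: `F_ω(A)` has no characters iff `I(2,3)` maps unitally into it. -/

namespace Vale.Agent.Results.P101.Characterless

open Vale.Agent.P101

theorem result (A : Type*) [CStarAlgebra A] [Nontrivial A] [TopologicalSpace.SeparableSpace A]
    (ω : Ultrafilter ℕ) (hω : (ω : Filter ℕ) ≤ Filter.atTop) :
    IsEmpty (FomegaCharacter A ω) ↔ ∃ Φ, IsDimDropHom A ω Φ :=
  characterless_iff_dimDropHom hω

end Vale.Agent.Results.P101.Characterless
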