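import Vale.Agent.P101.Lit.PlainProof

/-! P101: if `F_ω(A)` has no characters then `A` is `Z`-stable, with `A ⊗ Z` as the Jiang-Su limit
of the stages `A ⊗ I(pp i, qq i)`; the scalar limit is simple with a unique trace. -/

namespace Vale.Agent.Results.P101.ZStable

open Filter Vale.Agent.P101 Vale.Agent.P101.Lit
open scoped ComplexOrder

theorem result {A : Type*} [CStarAlgebra A] [PartialOrder A] [StarOrderedRing A]
    [TopologicalSpace.SeparableSpace A] (ω : Ultrafilter ℕ) (hω : (ω : Filter ℕ) ≤ atTop)
    (h : IsEmpty (FomegaCharacter A ω)) : IsZStablePlain A ∧ ∀ i, StageFacts i :=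
  ⟨isZStablePlain_of_isZStable (isZStable_of_characterless hω h), stageFacts⟩

end Vale.Agent.Results.P101.ZStable
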